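import Mathlib
import Vale.Agent.Lib.P083.Stmt
import Vale.Agent.Lib.P083.Final

/-!
# P083: a negative answer to the Kirchberg embedding problem

There is a nonzero separable unital C*-algebra `A` that admits no unital embedding (not even a unital
*-homomorphism) into the norm ultrapower of the Cuntz algebra `O_2`.

Here `O` is any nonzero unital C*-algebra generated by two isometries `s 0`, `s 1` with
`s 0 s 0* + s 1 s 1* = 1` (the universal one is `O_2`; by Cuntz 1977 all of them are isomorphic to
it), `ω` is any ultrafilter on `ℕ` and `q : ℓ^∞(ℕ, O) → U` is the quotient map onto the norm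
ultrapower `U = O^ω`.
-/

open scoped Topology BoundedContinuousFunction

namespace Vale.Agent.Results.P083.NoEmbedding

theorem result :
    ∃ (A : Type) (_ : CStarAlgebra A) (_ : Nontrivial A), TopologicalSpace.SeparableSpace A ∧
      ∀ (O : Type) [CStarAlgebra O] [Nontrivial O] (s : Fin 2 → O),
        Vale.Agent.P083.IsCuntzPair s →
        (StarAlgebra.adjoin ℂ (Set.range s)).topologicalClosure = ⊤ →
        ∀ ω : Ultrafilter ℕ,
          (∃ (U : Type) (_ : CStarAlgebra U) (q : (ℕ →ᵇ O) →⋆ₐ[ℂ] U),
            Vale.Agent.P083.IsUltrapowerMap ω q) ∧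
          ∀ (U : Type) [CStarAlgebra U] (q : (ℕ →ᵇ O) →⋆ₐ[ℂ] U),
            Vale.Agent.P083.IsUltrapowerMap ω q → IsEmpty (A →⋆ₐ[ℂ] U) :=
  Vale.Agent.P083.main_thm

end Vale.Agent.Results.P083.NoEmbedding
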