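import Mathlib
import Vale.Agent.Lib.P083.StmtO2
import Vale.Agent.Lib.P083.FinalU

/-!
# P083: a negative answer to the Kirchberg embedding problem, O_2 given by its universal property

The Cuntz algebra `O_2` exists (as the universal unital C*-algebra generated by two isometries
`s 0`, `s 1` with `s 0 s 0* + s 1 s 1* = 1`), and there is a nonzero separable unital C*-algebra `A`
without any unital *-homomorphism (in particular without a unital embedding) into the norm
ultrapower `U = O_2^ω`, for every ultrafilter `ω` on `ℕ`.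
-/

open scoped Topology BoundedContinuousFunction

namespace Vale.Agent.Results.P083.NoEmbeddingO2

theorem result :
    (∃ (O : Type) (_ : CStarAlgebra O) (s : Fin 2 → O), Vale.Agent.P083.IsCuntzTwo s) ∧
    ∃ (A : Type) (_ : CStarAlgebra A) (_ : Nontrivial A), TopologicalSpace.SeparableSpace A ∧
      ∀ (O : Type) [CStarAlgebra O] (s : Fin 2 → O), Vale.Agent.P083.IsCuntzTwo s →
        ∀ ω : Ultrafilter ℕ,
          (∃ (U : Type) (_ : CStarAlgebra U) (q : (ℕ →ᵇ O) →⋆ₐ[ℂ] U),
            Vale.Agent.P083.IsUltrapowerMap ω q) ∧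
          ∀ (U : Type) [CStarAlgebra U] (q : (ℕ →ᵇ O) →⋆ₐ[ℂ] U),
            Vale.Agent.P083.IsUltrapowerMap ω q → IsEmpty (A →⋆ₐ[ℂ] U) :=
  Vale.Agent.P083.main_thmU

end Vale.Agent.Results.P083.NoEmbeddingO2
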