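import Mathlib
import Vale.Agent.Lib.P083.StmtQ
import Vale.Agent.Lib.P083.FinalQ

/-!
# P083: a negative answer to the Kirchberg embedding problem

Let `O`, with the isometries `s₁`, `s₂`, be the Cuntz algebra `O_2`, that is the universal unital
C*-algebra generated by two isometries with `s₁ s₁* + s₂ s₂* = 1`.  There is a nonzero separable
unital C*-algebra `A` such that for no ultrafilter `ω` on `ℕ` there is a unital *-homomorphism (in
particular for no free ultrafilter `ω` there is a unital embedding) from `A` into the norm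
ultrapower `O^ω = ℓ^∞(ℕ, O) / I_ω(O)`.
-/

namespace Vale.Agent.Results.P083.NoEmbeddingQuot

theorem result :
    ∃ (O : Type) (_ : CStarAlgebra O) (s₁ s₂ : O),
      (star s₁ * s₁ = 1 ∧ star s₂ * s₂ = 1 ∧ s₁ * star s₁ + s₂ * star s₂ = 1) ∧
      (∀ (B : Type) [CStarAlgebra B] (t₁ t₂ : B),
        star t₁ * t₁ = 1 → star t₂ * t₂ = 1 → t₁ * star t₁ + t₂ * star t₂ = 1 →
          ∃! f : O →⋆ₐ[ℂ] B, f s₁ = t₁ ∧ f s₂ = t₂) ∧
      ∃ (A : Type) (_ : CStarAlgebra A), Nontrivial A ∧ TopologicalSpace.SeparableSpace A ∧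
        ∀ ω : Ultrafilter ℕ, ¬ ∃ φ : A → Vale.Agent.P083.NormUltrapower ω O,
          Vale.Agent.P083.IsUnitalStarHom ω φ :=
  Vale.Agent.P083.main_thmQ

end Vale.Agent.Results.P083.NoEmbeddingQuot
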